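import Vale.Agent.P269.CI2

namespace Vale.Agent.P269.H316

open Finset Vale.Agent.P269.CI2

/-- Classical data of an arbitrary smooth projective variety `X` (any dimension `r`) with
`H^0 = ℂ` and `H^1 = 0`. `phi_a`, `a : Fin n`, is a basis of `H^*(X; ℂ)` with `phi_a` of Hodge type
`(p a, q a)`, `phi_e = 1`, `phi_a ∪ phi_b = ∑ x, cup a b x • phi_x`, `η a b = ∫ phi_a ∪ phi_b`,
`c_1(TX) = ∑ a, γ a • phi_a`, `B` is the monoid of effective curve classes, `deg a β = ∫_β phi_a`,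
`c β = ∫_β c_1(TX)`, `t a = ∫ phi_a ∪ c_{r-1}(TX)`; `wood` is the Libgober-Wood identity. -/
structure Target (n : ℕ) (B : Type) [AddCommMonoid B] where
  r : ℕ
  p : Fin n → ℕ
  q : Fin n → ℕ
  e : Fin n
  cup : Fin n → Matrix (Fin n) (Fin n) ℂ
  η : Matrix (Fin n) (Fin n) ℂ
  γ : Fin n → ℂ
  deg : Fin n → B →+ ℂ
  c : B →+ ℤ
  t : Fin n → ℂ
  e_type : p e = 0 ∧ q e = 0
  other : ∀ a, a ≠ e → 2 ≤ p a + q a
  cup_type : ∀ a b x, cup a b x ≠ 0 → p x = p a + p b ∧ q x = q a + q b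
  cup_one : cup e = 1
  cup_comm : ∀ a b x, cup a b x = (-1) ^ ((p a + q a) * (p b + q b)) * cup b a x
  cup_assoc : ∀ a b c y, ∑ x, cup a b x * cup x c y = ∑ x, cup b c x * cup a x y
  η_type : ∀ a b, η a b ≠ 0 → p a + p b = r ∧ q a + q b = r
  η_comm : ∀ a b, η a b = (-1) ^ ((p a + q a) * (p b + q b)) * η b a
  η_frob : ∀ a b c, ∑ x, cup a b x * η x c = ∑ x, cup b c x * η a x
  η_unit : IsUnit η
  γ_type : ∀ a, γ a ≠ 0 → p a = 1 ∧ q a = 1
  c_eq : ∀ β, (c β : ℂ) = ∑ a, γ a * deg a β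
  wood : ∑ a, (-1) ^ (p a + q a) * ((p a : ℂ) - r / 2) ^ 2 =
    r / 12 * ∑ a, (-1) ^ (p a + q a) + 1 / 6 * ∑ a, γ a * t a

variable {n : ℕ} {B : Type} [AddCommMonoid B]

namespace Target

variable (X : Target n B)

/-- Virtual dimension of the moduli space of unpointed stable maps of genus `g` and class `β`. -/
def vdim (g : ℕ) (β : B) : ℤ := (1 - g) * (X.r - 3) + X.c β

/-- Cup product with `c_1(TX)`. -/
noncomputable def R : Matrix (Fin n) (Fin n) ℂ := ∑ a, X.γ a • X.cup a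

/-- The grading operator. -/
noncomputable def μ (a : Fin n) : ℂ := X.p a - X.r / 2

/-- Parity of the insertion `τ_m(phi_a)`, written `(a, m)`. -/
def par (x : Fin n × ℕ) : ℕ := X.p x.1 + X.q x.1

/-- Euler characteristic. -/
noncomputable def χ : ℂ := ∑ a, (-1) ^ X.par (a, 0)

/-- Twice the complex degree of an insertion minus two: `2 (m + (p + q) / 2 - 1)`. -/
def wt (x : Fin n × ℕ) : ℤ := 2 * x.2 + X.par x - 2

/-- Pairs `(k, l)` with `1 ≤ k ≤ vdim g β` and all insertions in `l` of positive weight, the total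
weight being `2 (vdim g β - k)`. -/
def reducedSet (g : ℕ) (β : B) : Set (ℕ × List (Fin n × ℕ)) :=
  {s | 1 ≤ s.1 ∧ (s.1 : ℤ) ≤ X.vdim g β ∧ (∀ x ∈ s.2, 1 ≤ X.wt x) ∧
    (s.2.map X.wt).sum = 2 * (X.vdim g β - s.1)}

end Target

/-- Descendant Gromov-Witten invariants of `X`: `F g β [(a₁, m₁), …, (a_k, m_k)]` is
`⟨τ_{m₁}(phi_{a₁}) ⋯ τ_{m_k}(phi_{a_k})⟩_{g, β}`. -/
structure GW (X : Target n B) [DecidableEq B] [HasAntidiagonal B] where
  F : ℕ → B → List (Fin n × ℕ) → ℂ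
  swap : ∀ g β l x y l', F g β (l ++ x :: y :: l') =
    (-1) ^ (X.par x * X.par y) * F g β (l ++ y :: x :: l')
  unstable : ∀ g l, 2 * g + l.length < 3 → F g 0 l = 0
  dimension : ∀ g β l, F g β l ≠ 0 →
    (l.map fun x => (x.2 : ℤ) + X.p x.1).sum = X.vdim g β + l.length ∧
    (l.map fun x => (x.2 : ℤ) + X.q x.1).sum = X.vdim g β + l.length
  string : ∀ g β l, F g β ((X.e, 0) :: l) =
    act (lower 1) l (F g β) + if g = 0 ∧ β = 0 then two X.η l else 0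
  dilaton : ∀ g β l, F g β ((X.e, 1) :: l) =
    (2 * g - 2 + l.length) * F g β l + if g = 1 ∧ β = 0 ∧ l = [] then X.χ / 24 else 0
  divisor : ∀ a, X.p a = 1 ∧ X.q a = 1 → ∀ g β l, F g β ((a, 0) :: l) =
    X.deg a β * F g β l + act (lower (X.cup a)) l (F g β) +
    (if g = 0 ∧ β = 0 then two (X.cup a * X.η) l else 0) +
    if g = 1 ∧ β = 0 ∧ l = [] then -X.t a / 24 else 0
  trr : ∀ β a m y z l, F 0 β ((a, m + 1) :: y :: z :: l) =
    ∑ v ∈ antidiagonal β, ∑ b, ∑ c, X.η⁻¹ b c * split X.par l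
      (fun I => (-1) ^ ((X.par y + X.par z + X.par (c, 0)) * (I.map X.par).sum) *
        F 0 v.1 ((a, m) :: (b, 0) :: I)) fun J => F 0 v.2 ((c, 0) :: y :: z :: J)

namespace GW

variable [DecidableEq B] [HasAntidiagonal B] {X : Target n B} (G : GW X)

/-- The coefficient of `Z⁻¹ ħ ∂_x ∂_y Z` at genus `g`, class `β` and insertions `l`. -/
def quad (g : ℕ) (β : B) (x y : Fin n × ℕ) (l : List (Fin n × ℕ)) : ℂ :=
  (if g = 0 then 0 else G.F (g - 1) β (x :: y :: l)) +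
  ∑ u ∈ antidiagonal g, ∑ v ∈ antidiagonal β,
    split X.par l (fun I => (-1) ^ (X.par y * (I.map X.par).sum) * G.F u.1 v.1 (x :: I))
      (fun J => G.F u.2 v.2 (y :: J))

/-- The coefficient of `Z⁻¹ L_{K-1} Z` at genus `g`, class `β` and insertions `l`. -/
noncomputable def vir (K g : ℕ) (β : B) (l : List (Fin n × ℕ)) : ℂ :=
  - ∑ i ∈ range (K + 1), br (X.μ X.e + 3 / 2) K i *
      ∑ b, (X.R ^ i) X.e b * G.F g β ((b, K - i) :: l)
  + act (fun x f => ∑ i ∈ range (K + 1), if i < x.2 + K then br (X.μ x.1 + x.2 + 1 / 2) K i *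
      ∑ b, (X.R ^ i) x.1 b * f (b, x.2 + K - 1 - i) else 0) l (G.F g β)
  + 1 / 2 * ∑ m ∈ range K, ∑ k ∈ range K, ∑ i ∈ range K, (if m + k + i + 2 = K then
      (-1) ^ (m + 1) * ∑ a, ∑ b, br (-X.μ a - m - 1 / 2) K i * (X.η⁻¹ * X.R ^ i) a b *
        G.quad g β (a, m) (b, k) l else 0)
  + (if g = 0 ∧ β = 0 then two (X.R ^ K * X.η) l else 0)
  + (if K = 1 ∧ g = 1 ∧ β = 0 ∧ l = [] then
      X.χ / 16 - (∑ a, (-1) ^ X.par (a, 0) * X.μ a ^ 2) / 4 else 0)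

end GW

end Vale.Agent.P269.H316
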