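import Vale.Agent.P269.Bdl.B1
import Vale.Agent.P269.H316.Defs

namespace Vale.Agent.P269.H316

open Finset Vale.Agent.P269.CI2

variable {n : ℕ} {B : Type} [AddCommMonoid B]

namespace Target

variable (X : Target n B)

/-- The target of the closure attached to the data. -/
noncomputable def toT : P269.Target (Fin n) B where
  r := X.r
  p := X.p
  q := X.q
  e := X.e
  e_type := X.e_type
  two_le := X.other
  cup := X.cup
  cup_type := X.cup_type
  cup_unit := X.cup_one
  cup_comm := X.cup_comm
  cup_assoc := X.cup_assoc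
  η := X.η
  η_type := X.η_type
  η_comm := X.η_comm
  η_frob := X.η_frob
  η_unit := X.η_unit
  γ := X.γ
  γ_type := X.γ_type
  deg := X.deg
  c := X.c
  c_eq := X.c_eq
  t := X.t
  LW := X.wood

theorem wt_eq : X.wt = X.toT.wt := by
  funext x
  unfold wt par P269.Target.wt
  push_cast
  change _ = 2 * (x.2 : ℤ) + X.p x.1 + X.q x.1 - 2
  ring

theorem reducedSet_eq (g : ℕ) (β : B) : X.reducedSet g β = X.toT.reducedSet g β := by
  unfold reducedSet P269.Target.reducedSet
  rw [X.wt_eq]
  rfl

theorem reducedSet_finite (g : ℕ) (β : B) : (X.reducedSet g β).Finite := by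
  rw [X.reducedSet_eq]
  exact X.toT.reducedSet_finite g β

end Target

namespace GW

variable [DecidableEq B] [HasAntidiagonal B] {X : Target n B} (G : GW X)

noncomputable def toTh : GWTheory X.toT where
  F := G.F
  swap := G.swap
  unstable := G.unstable
  dimension := G.dimension
  string := by
    intro g β l
    have h := G.string g β l
    rw [CI2.act_eq, CI2.lower_eq, CI2.two_eq] at h
    exact h
  dilaton := G.dilaton
  divisor := by
    intro a ha g β l
    have h := G.divisor a ha g β l
    rw [CI2.act_eq, CI2.lower_eq, CI2.two_eq] at h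
    exact h

theorem toTh_quad (g : ℕ) (β : B) (x y : Fin n × ℕ) (l : List (Fin n × ℕ)) :
    G.toTh.quad g β x y l = G.quad g β x y l := by
  unfold GWTheory.quad quad
  simp only [CI2.split_eq]
  rfl

theorem toTh_vir (K g : ℕ) (β : B) (l : List (Fin n × ℕ)) :
    G.toTh.vir K g β l = G.vir K g β l := by
  unfold GWTheory.vir vir
  simp only [toTh_quad, CI2.act_eq, CI2.two_eq, CI2.br_eq]
  rfl

theorem toTh_TRR : G.toTh.TRR := by
  intro d a m y z l
  have h := G.trr d a m y z l
  simp only [CI2.split_eq] at h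
  exact h

theorem vir_genus_zero (K : ℕ) (β : B) (l : List (Fin n × ℕ)) : G.vir K 0 β l = 0 := by
  rw [← G.toTh_vir]
  exact G.toTh.genus_zero G.toTh_TRR K β l

theorem vir_of_vdim_le (g : ℕ) (β : B) (h : X.vdim g β ≤ 0) (K : ℕ) (l : List (Fin n × ℕ)) :
    G.vir K g β l = 0 := by
  rw [← G.toTh_vir]
  exact G.toTh.range_theorem G.toTh.stringId g β h K l

/-- `K_X` nef, dimension at least three: the full Virasoro conjecture. -/
theorem vir_nef (h3 : 3 ≤ X.r) (hc : ∀ β, X.c β ≤ 0) (K g : ℕ) (β : B)
    (l : List (Fin n × ℕ)) : G.vir K g β l = 0 := by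
  rcases Nat.eq_zero_or_pos g with rfl | hg
  · exact G.vir_genus_zero K β l
  · apply G.vir_of_vdim_le
    have h4 := hc β
    unfold Target.vdim
    have h5 : (1 - (g : ℤ)) * ((X.r : ℤ) - 3) ≤ 0 := by
      apply mul_nonpos_of_nonpos_of_nonneg
      · omega
      · omega
    omega

theorem vir_single (g : ℕ) (β : B) (V : ℕ) (hV : X.vdim g β = V) :
    (∀ K l, G.vir K g β l = 0) ↔ ∀ l, G.vir (V + 1) g β l = 0 := by
  have := G.toTh.single_operator G.toTh.stringId g β V hV
  simpa only [toTh_vir] using this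

theorem vir_reduced (h2 : ∀ a, X.p a + X.q a = 2 → X.p a = 1 ∧ X.q a = 1) (g : ℕ) (β : B) :
    (∀ K l, G.vir K g β l = 0) ↔ ∀ s ∈ X.reducedSet g β, G.vir (s.1 + 1) g β s.2 = 0 := by
  have := G.toTh.main_reduced h2 g β
  simp only [toTh_vir] at this
  rw [X.reducedSet_eq]
  exact this

end GW

end Vale.Agent.P269.H316
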